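import Vale.Agent.P281.H603.TE.AlbB
import Vale.Agent.P281.H864.Toc.Trans
import Vale.Agent.P281.H303.UD.Spec

/-!
# P281, project T-UD (helper83), block UG0: being immersed in the Albanese torus is an open condition
-/

open Set Filter Metric MeasureTheory Vale.Agent.P281 Vale.Agent.P281.H713 Vale.Agent.P272.K
open scoped Topology ContDiff Manifold ComplexConjugate

set_option linter.unusedSectionVars false

noncomputable section

namespace Vale.Agent.P281.H83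

open Vale.Agent.P281.H64.TK Vale.Agent.P281.H603.K Vale.Agent.P281.H864.K
open Vale.Agent.P281.H603.TE
open Vale.Agent.P281.H864.Toc (IsoHol add_iso)
open Vale.Agent.P281.H303.UD (ImmOpenStmt IsImmE)

attribute [local instance] ccs

/-- comparison, in the other letters -/
theorem isoHol_of {d : ℕ} {E Γ E' Γ' : Type} [TopologicalSpace E] [Group Γ] [MulAction Γ E]
    [TopologicalSpace E'] [Group Γ'] [MulAction Γ' E'] {S : Sheets d E Γ}
    {w : Fin S.N → Cm d → Matrix (Fin d) (Fin d) ℂ} {S' : Sheets d E' Γ'}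
    {w' : Fin S'.N → Cm d → Matrix (Fin d) (Fin d) ℂ} {τ : E ≃ₜ E'} {ρ : Γ ≃* Γ'}
    (h : Cmp S w S' w' τ ρ) : IsoHol S S' τ := by
  intro i j z hz z' hz' γ he
  have key : ∀ e : E', τ.symm (γ • e) = ρ.symm γ • τ.symm e := fun e => h.symm_smul γ e
  have he' : S.σ i z = ρ.symm γ • τ.symm (S'.σ j z') := by
    rw [← key, ← he, τ.symm_apply_apply]
  obtain ⟨θ, h1, h2, h3, h4⟩ := h.hol i j z hz z' hz' (ρ.symm γ) he'
  refine ⟨θ, h1, h2, h3, ?_⟩
  filter_upwards [h4] with v hv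
  have hv' : S.σ i v = ρ.symm γ • τ.symm (S'.σ j (θ v)) := hv
  rw [hv', ← key, τ.apply_symm_apply]

/-- immersed in the Albanese torus -/
def IsImmS {d : ℕ} {E Γ : Type} [TopologicalSpace E] [Group Γ] [MulAction Γ E]
    (S : Sheets d E Γ) : Prop :=
  ∀ i, ∀ z ∈ ball (0 : Cm d) 3, ∀ ξ : Cm d, ξ ≠ 0 → ∃ h c, Add S h c ∧
    fderiv ℂ (fun z => h (S.σ i z)) z ξ ≠ 0

theorem immS_iso {d : ℕ} {E Γ E' Γ' : Type} [TopologicalSpace E] [Group Γ] [MulAction Γ E]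
    [TopologicalSpace E'] [Group Γ'] [MulAction Γ' E'] {S : Sheets d E Γ} {S' : Sheets d E' Γ'}
    {τ : E → E'} {ρ : Γ → Γ'} (hτ : ∀ γ e, τ (γ • e) = ρ γ • τ e) (hi : IsoHol S S' τ)
    (h : ∀ j, ∀ w : Cm d, ‖w‖ < 1 → ∀ ξ : Cm d, ξ ≠ 0 → ∃ h c, Add S' h c ∧
      fderiv ℂ (fun z => h (S'.σ j z)) w ξ ≠ 0) : IsImmS S := by
  intro i z hz ξ hξ
  obtain ⟨γ, j, w, hw, he⟩ := S'.cover (τ (S.σ i z))
  have hw3 : w ∈ ball (0 : Cm d) 3 := ball13 (by simpa using hw)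
  obtain ⟨θ, h1, h2, h3, h4⟩ := hi i j z hz w hw3 γ he.symm
  have hθξ : fderiv ℂ θ z ξ ≠ 0 := by
    have hd' : (fderiv ℂ θ z).det ≠ 0 := by
      have h0 : LinearMap.det (fderiv ℂ θ z : Cm d →ₗ[ℂ] Cm d) =
          (H64.TK.jac θ z).det := by
        rw [← LinearMap.det_toMatrix']
        congr 1
      unfold ContinuousLinearMap.det
      rwa [h0]
    intro h0
    apply hξ
    apply ((fderiv ℂ θ z).toContinuousLinearEquivOfDetNeZero hd').injective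
    rw [map_zero]
    exact h0
  obtain ⟨g, c, hg, hg'⟩ := h j w hw _ hθξ
  refine ⟨fun e => g (τ e), _, add_iso hτ hi hg, ?_⟩
  have h6 : (fun u => g (τ (S.σ i u))) =ᶠ[𝓝 z] fun u => g (S'.σ j (θ u)) + c γ := by
    filter_upwards [h4] with u hu
    rw [hu, hg.add]
  have h5 : HasFDerivAt (fun u => g (S'.σ j (θ u)) + c γ)
      ((fderiv ℂ (fun z => g (S'.σ j z)) w).comp (fderiv ℂ θ z)) z := by
    have h7 : HasFDerivAt (fun z => g (S'.σ j z)) (fderiv ℂ (fun z => g (S'.σ j z)) w) (θ z) := by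
      rw [h2]
      exact ((hg.hol j).differentiableAt (isOpen_ball.mem_nhds hw3)).hasFDerivAt
    exact (h7.comp z h1.differentiableAt.hasFDerivAt).add_const _
  rw [(h5.congr_of_eventuallyEq h6).fderiv]
  exact hg'

/-- it is enough to check the unit balls -/
theorem immS_unit {d : ℕ} {E Γ : Type} [TopologicalSpace E] [Group Γ] [MulAction Γ E]
    {S : Sheets d E Γ} (h : ∀ j, ∀ w : Cm d, ‖w‖ < 1 → ∀ ξ : Cm d, ξ ≠ 0 → ∃ h c, Add S h c ∧
      fderiv ℂ (fun z => h (S.σ j z)) w ξ ≠ 0) : IsImmS S :=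
  immS_iso (S' := S) (τ := fun e => e) (ρ := fun γ => γ) (fun _ _ => rfl)
    (H864.K.holCompat_refl S) h

/-- the set of the parameters of the immersed manifolds is open -/
theorem immS_open {p d : ℕ} {E Γ : Type} [TopologicalSpace E] [SimplyConnectedSpace E] [Group Γ]
    [MulAction Γ E] (𝓕 : Fam p d E Γ) {T' : Set (Cm p)} (hT' : T' ⊆ 𝓕.T) {g : ℕ}
    {F : Cm p → E → Fin g → ℂ} {c : Cm p → Γ → Fin g → ℂ}
    (bas : ∀ (t : Cm p) (ht : t ∈ T'), IsBas (𝓕.at t (hT' ht)) (F t) (c t))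
    (holF : ∀ i, ∀ t ∈ T', ∀ z ∈ ball (0 : Cm d) 3, ∀ j,
      AnalyticAt ℂ (fun q : Cm p × Cm d => F q.1 (𝓕.σ i q.1 q.2) j) (t, z))
    {t₀ : Cm p} (ht₀ : t₀ ∈ T')
    (hC2 : ∀ (h : E → ℂ) (c : Γ → ℂ), Add (𝓕.at t₀ (hT' ht₀)) h c → (∀ γ, (c γ).re = 0) →
      ∀ e e', h e = h e')
    (h : IsImmS (𝓕.at t₀ (hT' ht₀))) :
    ∀ᶠ t in 𝓝 t₀, ∀ ht : t ∈ T', IsImmS (𝓕.at t (hT' ht)) := by
  set Φ : Fin 𝓕.N → Cm p × Cm d → Fin g → ℂ := fun i q => F q.1 (𝓕.σ i q.1 q.2) with hΦ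
  have hΦa : ∀ i, ∀ t ∈ T', ∀ z ∈ ball (0 : Cm d) 3, AnalyticAt ℂ (Φ i) (t, z) :=
    fun i t ht z hz => AnalyticAt.pi fun j => holF i t ht z hz j
  set A : Fin 𝓕.N → Cm p → Cm d → (Cm d →L[ℂ] (Fin g → ℂ)) := fun i t z =>
    (fderiv ℂ (Φ i) (t, z)).comp (ContinuousLinearMap.inr ℂ (Cm p) (Cm d)) with hA
  have hAd : ∀ i, ∀ t ∈ T', ∀ z ∈ ball (0 : Cm d) 3,
      HasFDerivAt (fun z => F t (𝓕.σ i t z)) (A i t z) z := by
    intro i t ht z hz
    have h1 : HasFDerivAt (Φ i) (fderiv ℂ (Φ i) (t, z)) (t, z) :=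
      (hΦa i t ht z hz).differentiableAt.hasFDerivAt
    exact h1.comp z (hasFDerivAt_prodMk_right t z)
  have hAj : ∀ i, ∀ t ∈ T', ∀ z ∈ ball (0 : Cm d) 3, ∀ j,
      HasFDerivAt (fun z => F t (𝓕.σ i t z) j) ((ContinuousLinearMap.proj j).comp (A i t z)) z :=
    fun i t ht z hz j => (hasFDerivAt_pi'.1 (hAd i t ht z hz)) j
  -- injectivity at `t₀`
  have hinj : ∀ i, ∀ z ∈ ball (0 : Cm d) 3, Function.Injective (A i t₀ z) := by
    intro i z hz
    rw [injective_iff_map_eq_zero]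
    intro ξ hξ
    by_contra hne
    obtain ⟨u, b, hu, hu'⟩ := h i z hz ξ hne
    obtain ⟨s, b', hs⟩ := exists_lin (bas t₀ ht₀) hC2 hu
    apply hu'
    have h1 : (fun z => u ((𝓕.at t₀ (hT' ht₀)).σ i z)) =
        fun z => ∑ j, s j * F t₀ (𝓕.σ i t₀ z) j + b' := funext fun z => hs _
    have h2 : HasFDerivAt (fun z => ∑ j, s j * F t₀ (𝓕.σ i t₀ z) j + b')
        (∑ j, s j • (ContinuousLinearMap.proj j).comp (A i t₀ z)) z := by
      refine HasFDerivAt.add_const _ (HasFDerivAt.fun_sum fun j _ => ?_)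
      exact (hAj i t₀ ht₀ z hz j).const_mul (s j)
    rw [h1, h2.fderiv]
    simp only [sum_apply, smul_apply,
      ContinuousLinearMap.comp_apply, hξ, map_zero, smul_zero, Finset.sum_const_zero]
  -- the neighbourhood
  have hev : ∀ i, ∀ᶠ t in 𝓝 t₀, ∀ z ∈ closedBall (0 : Cm d) 1,
      Function.Injective (A i t z) := by
    intro i
    refine (isCompact_closedBall (0 : Cm d) 1).eventually_forall_of_forall_eventually ?_
    intro z hz
    have hz3 : z ∈ ball (0 : Cm d) 3 := by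
      rw [mem_closedBall, dist_zero_right] at hz
      rw [mem_ball, dist_zero_right]
      linarith
    have hcont : ContinuousAt (fun q : Cm p × Cm d => A i q.1 q.2) (t₀, z) := by
      have h1 : ContinuousAt (fderiv ℂ (Φ i)) (t₀, z) :=
        (hΦa i t₀ ht₀ z hz3).fderiv.continuousAt
      exact h1.clm_comp continuousAt_const
    exact hcont.eventually
      (ContinuousLinearMap.isOpen_injective.mem_nhds (hinj i z hz3))
  have hev' : ∀ᶠ t in 𝓝 t₀, ∀ i, ∀ z ∈ closedBall (0 : Cm d) 1, Function.Injective (A i t z) :=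
    Filter.eventually_all.2 hev
  filter_upwards [hev'] with t ht' ht
  refine immS_unit fun i z hz ξ hξ => ?_
  have hz1 : z ∈ closedBall (0 : Cm d) 1 := by
    rw [mem_closedBall, dist_zero_right]
    exact hz.le
  have hz3 : z ∈ ball (0 : Cm d) 3 := ball13 (by simpa using hz)
  have h1 : A i t z ξ ≠ 0 := fun h0 => hξ (ht' i z hz1 (h0.trans (map_zero (A i t z)).symm))
  obtain ⟨j, hj⟩ := Function.ne_iff.1 h1
  refine ⟨fun e => F t e j, _, (bas t ht).add j, ?_⟩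
  have h2 : fderiv ℂ (fun z => F t ((𝓕.at t (hT' ht)).σ i z) j) z =
      (ContinuousLinearMap.proj j).comp (A i t z) := (hAj i t ht z hz3 j).fderiv
  rw [h2]
  exact hj

/-- **UG0** -/
theorem immOpen_of (I : Inputs) : ImmOpenStmt := by
  intro p d m Z Y _ _ _ _ _ _ _ _ f S w hd hf hP hconn hw y hy h
  obtain ⟨n, g, hn, B, hL⟩ := dglobE I hd m hf hw hP hconn hy
  obtain ⟨L, h1, h2, h3⟩ := hL y hy
  obtain ⟨E', Γ', _, _, _, _, _, _, 𝓕', q', χ', t', ht', hfin, hM', hy', hT⟩ := h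
  obtain ⟨W', hPull', hKF'⟩ := I.w p d Z Y f w E' Γ' 𝓕' q' χ' hf hM' hw
  have hyy : L.χ.symm (L.χ y) = y := L.χ.left_inv h1
  obtain ⟨τ, ρ, -, -, hc⟩ := compareE I hd hf hw L.model hM' L.pull hPull' (L.hT' h2) ht'
    (hyy.trans hy'.symm) m
  have h4 : IsImmS (sub (L.𝓕.at (L.χ y) (L.hT' h2)) (core L.Γ m)) :=
    immS_iso (ρ := res ρ fun _ => map_core ρ m) hc.eqv (isoHol_of hc) fun j v hv =>
      hT j v (ball13 (by simpa using hv))
  have hC2 := (I.c2 d L.E (core L.Γ m) (sub (L.𝓕.at (L.χ y) (L.hT' h2)) (core L.Γ m)) _ hd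
    (kah_fW _ L.kfam (L.hT' h2))).2
  have h5 := immS_open (fsub L.𝓕 (core L.Γ m)) L.hT' L.bas L.holF h2 hC2 h4
  have h6 : ∀ᶠ y' in 𝓝 y, y' ∈ L.χ.source := L.χ.open_source.mem_nhds h1
  have h7 : ∀ᶠ y' in 𝓝 y, L.χ y' ∈ L.T' :=
    (L.χ.continuousAt h1).eventually (L.isOpen'.mem_nhds h2)
  have h8 := (L.χ.continuousAt h1).eventually h5
  filter_upwards [h6, h7, h8] with y' a1 a2 a3
  exact ⟨L.E, L.Γ, inferInstance, inferInstance, inferInstance, inferInstance, inferInstance,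
    inferInstance, L.𝓕, L.q, L.χ, L.χ y', L.hT' a2, L.fin, L.model, L.χ.left_inv a1, a3 a2⟩

end Vale.Agent.P281.H83
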