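import Vale.Agent.P281.H603.C.Spec
import Vale.Agent.P211.HK.LocSys
import Mathlib.Order.Filter.Germ.Basic
import Mathlib.Topology.Covering.Basic

/-! P281, class C, block M2 (helper83): a connected covering of the complement of a closed set of
codimension two in a simply connected manifold is trivial. -/

open Set Filter Topology Metric Vale.Agent.P272.K

namespace Vale.Agent.P281.H83

open Vale.Agent.P281.H603.C

namespace Sheet

section Germs

variable {M C : Type} [TopologicalSpace M] [TopologicalSpace C] (N : Set M) (c : C → ↥(Nᶜ))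

/-- The trace of the neighbourhoods of `z` on the complement of `N`. -/
def tr (z : M) : Filter ↥(Nᶜ) := comap Subtype.val (𝓝 z)

/-- `s` is a section of `c` near `z`. -/
def IsSec (z : M) (s : ↥(Nᶜ) → C) : Prop := ∀ᶠ q in tr N z, c (s q) = q ∧ ContinuousAt s q

/-- The germs at `z` of sections off `N`. -/
def Fg (z : M) : Type :=
  {g : Germ (tr N z) C // ∃ s : ↥(Nᶜ) → C, IsSec N c z s ∧ g = (s : Germ (tr N z) C)}

/-- Parallel sections. -/
def Par (p : M) (S : (q : M) → Fg N c q) : Prop :=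
  ∃ s : ↥(Nᶜ) → C, ∀ᶠ q in 𝓝 p, IsSec N c q s ∧ (S q).1 = (s : Germ (tr N q) C)

/-- A small set `V`: the complement of `N` in `V` is connected and dense and every value of `c`
extends to a section over it. -/
structure Nice (V : Set M) : Prop where
  opn : IsOpen V
  con : IsPreconnected (Subtype.val ⁻¹' V : Set ↥(Nᶜ))
  dns : ∀ q ∈ V, (tr N q).NeBot
  sec : ∀ x : C, (c x : M) ∈ V → ∃ σ : ↥(Nᶜ) → C,
    (∀ q : ↥(Nᶜ), (q : M) ∈ V → c (σ q) = q ∧ ContinuousAt σ q) ∧ σ (c x) = x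

variable {N c}

omit [TopologicalSpace C] in
theorem tr_eq (q : ↥(Nᶜ)) : tr N (q : M) = 𝓝 q := (nhds_subtype ..).symm

omit [TopologicalSpace C] in
theorem ev_ev {z : M} {P : ↥(Nᶜ) → Prop} (h : ∀ᶠ q in tr N z, P q) :
    ∀ᶠ z' in 𝓝 z, ∀ᶠ q in tr N z', P q := by
  have h1 : ∀ᶠ m in 𝓝 z, ∀ q : ↥(Nᶜ), (q : M) = m → P q := eventually_comap.1 h
  filter_upwards [eventually_eventually_nhds.2 h1] with z' hz'
  exact eventually_comap.2 hz'

omit [TopologicalSpace C] in
theorem ev_of_open {z : M} {V : Set M} (hV : IsOpen V) (hz : z ∈ V) {P : ↥(Nᶜ) → Prop}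
    (h : ∀ q : ↥(Nᶜ), (q : M) ∈ V → P q) : ∀ᶠ q in tr N z, P q :=
  eventually_comap.2 (by
    filter_upwards [hV.mem_nhds hz] with m hm q hq
    exact h q (hq ▸ hm))

theorem IsSec.near {z : M} {s : ↥(Nᶜ) → C} (h : IsSec N c z s) : ∀ᶠ z' in 𝓝 z, IsSec N c z' s :=
  ev_ev h

/-- two sections over a nice set which agree somewhere agree -/
theorem Nice.eq {V : Set M} (hV : Nice N c V) (hc : IsCoveringMap c) {s s' : ↥(Nᶜ) → C}
    (hs : ∀ q : ↥(Nᶜ), (q : M) ∈ V → c (s q) = q ∧ ContinuousAt s q)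
    (hs' : ∀ q : ↥(Nᶜ), (q : M) ∈ V → c (s' q) = q ∧ ContinuousAt s' q) {q₀ : ↥(Nᶜ)}
    (h0 : (q₀ : M) ∈ V) (he : s q₀ = s' q₀) : ∀ q : ↥(Nᶜ), (q : M) ∈ V → s q = s' q := by
  have := hc.eqOn_of_comp_eqOn hV.con (g₁ := s) (g₂ := s')
    (fun q hq => (hs q hq).2.continuousWithinAt) (fun q hq => (hs' q hq).2.continuousWithinAt)
    (fun q hq => (hs q hq).1.trans (hs' q hq).1.symm) h0 he
  exact fun q hq => this hq

/-- Everything near `z` happens on a nice set. -/
theorem exists_nice (hb : ∀ z : M, ∀ W ∈ 𝓝 z, ∃ V ⊆ W, z ∈ V ∧ Nice N c V) {z : M} {P : M → Prop}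
    (h : ∀ᶠ m in 𝓝 z, P m) : ∃ V : Set M, z ∈ V ∧ Nice N c V ∧ ∀ m ∈ V, P m := by
  obtain ⟨V, hV1, hzV, hV⟩ := hb z _ h
  exact ⟨V, hzV, hV, fun m hm => hV1 hm⟩

theorem IsSec.ev {z : M} {s : ↥(Nᶜ) → C} (h : IsSec N c z s) :
    ∀ᶠ m in 𝓝 z, ∀ q : ↥(Nᶜ), (q : M) = m → c (s q) = q ∧ ContinuousAt s q :=
  eventually_comap.1 h

/-- the locally constant system -/
theorem locSys (hc : IsCoveringMap c)
    (hb : ∀ z : M, ∀ W ∈ 𝓝 z, ∃ V ⊆ W, z ∈ V ∧ Nice N c V) (hne : ∀ z, Nonempty (Fg N c z)) :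
    Vale.Agent.P211.HK.LocSys (Par N c) := by
  refine ⟨?_, ?_, ?_, ?_, ?_⟩
  · rintro p S ⟨s, hs⟩
    filter_upwards [hs.eventually_nhds] with q hq using ⟨s, hq⟩
  · rintro p S S' ⟨s, hs⟩ ⟨s', hs'⟩ he
    have h1 : (s : Germ (tr N p) C) = (s' : Germ (tr N p) C) := by
      rw [← hs.self_of_nhds.2, ← hs'.self_of_nhds.2, he]
    have h2 := ev_ev (Germ.coe_eq.1 h1)
    filter_upwards [h2, hs, hs'] with q hq h3 h4
    refine Subtype.ext ?_
    rw [h3.2, h4.2]
    exact Germ.coe_eq.2 hq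
  · rintro p S S' ⟨s, hs⟩ ⟨s', hs'⟩ hfr
    obtain ⟨V, hpV, hV, hVP⟩ := exists_nice hb
      ((hs.and hs').and (hs.self_of_nhds.1.ev.and hs'.self_of_nhds.1.ev))
    obtain ⟨q, hSq, hqV⟩ := (hfr.and_eventually (hV.opn.mem_nhds hpV)).exists
    have h1 : (s : Germ (tr N q) C) = (s' : Germ (tr N q) C) := by
      rw [← (hVP q hqV).1.1.2, ← (hVP q hqV).1.2.2, hSq]
    have h2 := Germ.coe_eq.1 h1
    have _ := hV.dns q hqV
    obtain ⟨q', hq'1, hq'V⟩ := (h2.and
      (ev_of_open (N := N) hV.opn hqV (P := fun q' => (q' : M) ∈ V) fun _ h => h)).exists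
    have h3 := hV.eq hc (s := s) (s' := s') (fun q hq => (hVP q hq).2.1 q rfl)
      (fun q hq => (hVP q hq).2.2 q rfl) hq'V hq'1
    refine Subtype.ext ?_
    rw [(hVP p hpV).1.1.2, (hVP p hpV).1.2.2]
    exact Germ.coe_eq.2 (ev_of_open hV.opn hpV h3)
  · rintro p S S' ⟨s, hs⟩ he
    refine ⟨s, ?_⟩
    filter_upwards [hs, he] with q hq hq'
    exact ⟨hq.1, hq' ▸ hq.2⟩
  · intro p
    obtain ⟨U, -, hpU, hU⟩ := hb p univ univ_mem
    refine ⟨U, hU.opn.mem_nhds hpU, fun q hq v => ?_⟩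
    obtain ⟨g, s, hs, rfl⟩ := v
    obtain ⟨V, hqV, hV, hVP⟩ := exists_nice hb (hs.ev.and (hU.opn.eventually_mem hq))
    have _ := hV.dns q hqV
    obtain ⟨q', hq'V⟩ :=
      (ev_of_open (N := N) hV.opn hqV (P := fun q' => (q' : M) ∈ V) fun _ h => h).exists
    have hx : (c (s q') : M) ∈ U := by
      rw [((hVP _ hq'V).1 q' rfl).1]
      exact (hVP _ hq'V).2
    obtain ⟨σ, hσ, hσx⟩ := hU.sec (s q') hx
    rw [((hVP _ hq'V).1 q' rfl).1] at hσx
    have h3 := hV.eq hc (s := σ) (s' := s) (fun q hq => hσ q (hVP q hq).2)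
      (fun q hq => (hVP q hq).1 q rfl) hq'V hσx
    have hsec : ∀ q ∈ U, IsSec N c q σ := fun q hq => ev_of_open hU.opn hq hσ
    classical
    let S : (q : M) → Fg N c q := fun q =>
      if h : q ∈ U then ⟨(σ : Germ (tr N q) C), σ, hsec q h, rfl⟩ else (hne q).some
    have hS : ∀ q ∈ U, (S q).1 = (σ : Germ (tr N q) C) := by
      intro q hq
      have h4 : S q = ⟨(σ : Germ (tr N q) C), σ, hsec q hq, rfl⟩ := dif_pos hq
      rw [h4]
    refine ⟨S, ?_, ?_⟩
    · refine Subtype.ext ?_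
      rw [hS q hq]
      exact Germ.coe_eq.2 (ev_of_open hV.opn hqV h3)
    · intro q' hq'
      refine ⟨σ, ?_⟩
      filter_upwards [hU.opn.mem_nhds hq'] with z hz using ⟨hsec z hz, hS z hz⟩

/-- there are sections near every point -/
theorem nonempty_fg [PreconnectedSpace M] [Nonempty C]
    (hb : ∀ z : M, ∀ W ∈ 𝓝 z, ∃ V ⊆ W, z ∈ V ∧ Nice N c V) (z : M) : Nonempty (Fg N c z) := by
  have hA : IsClopen {z : M | Nonempty (Fg N c z)} := by
    refine ⟨⟨?_⟩, ?_⟩
    · rw [isOpen_iff_mem_nhds]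
      intro z hz
      obtain ⟨V, -, hzV, hV⟩ := hb z univ univ_mem
      refine mem_of_superset (hV.opn.mem_nhds hzV) ?_
      rintro z' hz'V ⟨g, s, hs, rfl⟩
      refine hz ?_
      have _ := hV.dns z' hz'V
      obtain ⟨q', hq'V, hq's⟩ := ((ev_of_open (N := N) hV.opn hz'V (P := fun q' => (q' : M) ∈ V)
        fun _ h => h).and hs).exists
      have hx : (c (s q') : M) ∈ V := by
        rw [hq's.1]
        exact hq'V
      obtain ⟨σ, hσ, -⟩ := hV.sec (s q') hx
      exact ⟨⟨σ, σ, ev_of_open hV.opn hzV hσ, rfl⟩⟩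
    · rw [isOpen_iff_mem_nhds]
      rintro z ⟨g, s, hs, rfl⟩
      filter_upwards [hs.near] with z' hz' using ⟨⟨s, s, hz', rfl⟩⟩
  have hn : {z : M | Nonempty (Fg N c z)}.Nonempty := by
    obtain ⟨x⟩ := ‹Nonempty C›
    obtain ⟨V, -, hzV, hV⟩ := hb (c x) univ univ_mem
    obtain ⟨σ, hσ, -⟩ := hV.sec x hzV
    exact ⟨c x, ⟨σ, σ, ev_of_open hV.opn hzV hσ, rfl⟩⟩
  have h1 : z ∈ {z : M | Nonempty (Fg N c z)} := by
    rw [hA.eq_univ hn]
    trivial
  exact h1

/-- the abstract form of the theorem -/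
theorem inj_of_nice [SimplyConnectedSpace M] [LocallyPathConnectedSpace M] [PreconnectedSpace C]
    (hc : IsCoveringMap c) (hb : ∀ z : M, ∀ W ∈ 𝓝 z, ∃ V ⊆ W, z ∈ V ∧ Nice N c V) :
    Function.Injective c := by
  intro x y hxy
  have _ : Nonempty C := ⟨x⟩
  have hL := locSys hc hb (nonempty_fg hb)
  obtain ⟨V, -, hxV, hV⟩ := hb (c x) univ univ_mem
  obtain ⟨σ, hσ, hσx⟩ := hV.sec x hxV
  obtain ⟨S, ⟨hS0, hS⟩, -⟩ := hL.existsUnique (c x : M)
    ⟨(σ : Germ (tr N (c x : M)) C), σ, ev_of_open hV.opn hxV hσ, rfl⟩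
  choose t ht using hS
  -- the global section
  have hval : ∀ (q : ↥(Nᶜ)) (s s' : ↥(Nᶜ) → C),
      (s : Germ (tr N (q : M)) C) = (s' : Germ (tr N (q : M)) C) → s q = s' q := by
    intro q s s' h
    have h1 := Germ.coe_eq.1 h
    rw [tr_eq] at h1
    exact h1.self_of_nhds
  let τ : ↥(Nᶜ) → C := fun q => t q q
  have hτ : ∀ q : ↥(Nᶜ), τ =ᶠ[𝓝 q] t q := by
    intro q
    have h1 := ht (q : M)
    have h2 : ∀ᶠ q' : ↥(Nᶜ) in 𝓝 q, IsSec N c (q' : M) (t q) ∧
        (S q').1 = ((t q : ↥(Nᶜ) → C) : Germ (tr N (q' : M)) C) :=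
      continuous_subtype_val.continuousAt.eventually h1
    filter_upwards [h2] with q' hq'
    exact hval q' (t (q' : M)) (t (q : M)) (((ht (q' : M)).self_of_nhds.2).symm.trans hq'.2)
  have hsec : ∀ q : ↥(Nᶜ), c (τ q) = q ∧ ContinuousAt τ q := by
    intro q
    have h1 := (ht (q : M)).self_of_nhds.1
    unfold IsSec at h1
    rw [tr_eq] at h1
    have h2 := h1.self_of_nhds
    refine ⟨?_, h2.2.congr (hτ q).symm⟩
    rw [(hτ q).self_of_nhds]
    exact h2.1
  have hτx : τ (c x) = x := by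
    have h1 : ((t (c x : M) : ↥(Nᶜ) → C) : Germ (tr N (c x : M)) C) = (σ : Germ _ C) := by
      rw [← (ht (c x : M)).self_of_nhds.2, hS0]
    exact (hval (c x) _ _ h1).trans hσx
  have hτc : Continuous τ := continuous_iff_continuousAt.2 fun q => (hsec q).2
  have hid : τ ∘ c = id := hc.eq_of_comp_eq (hτc.comp hc.continuous) continuous_id
    (funext fun x' => (hsec (c x')).1) x hτx
  have h1 := congrFun hid x
  have h2 := congrFun hid y
  simp only [Function.comp_apply, id_eq] at h1 h2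
  rw [← h1, ← h2, hxy]

end Germs

/-- Near every point there are nice sets (from **M1b**). -/
theorem nice_basis (hS : SecStmt) {n : ℕ} {M C : Type} [TopologicalSpace M]
    [TopologicalSpace C] [T2Space C] {N : Set M}
    (hch : ∀ z : M, ∃ φ : OpenPartialHomeomorph M (Cm n), z ∈ φ.source ∧
      Thin2 (φ.target ∩ φ.symm ⁻¹' N) φ.target) {c : C → ↥(Nᶜ)} (hc : IsCoveringMap c)
    (z : M) (W : Set M) (hW : W ∈ 𝓝 z) : ∃ V ⊆ W, z ∈ V ∧ Nice N c V := by
  obtain ⟨φ, hz, hthin⟩ := hch z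
  have h1 : φ.target ∩ φ.symm ⁻¹' W ∈ 𝓝 (φ z) :=
    inter_mem (φ.open_target.mem_nhds (φ.map_source hz))
      ((φ.continuousAt_symm (φ.map_source hz)) (by rw [φ.left_inv hz]; exact hW))
  obtain ⟨r, hr, hball⟩ := Metric.mem_nhds_iff.1 h1
  set B : Set (Cm n) := ball (φ z) r with hB
  set A : Set (Cm n) := φ.target ∩ φ.symm ⁻¹' N with hA
  have hAB : Thin2 A B := by
    refine ⟨fun b hb hbA => hthin.closed b (hball hb).1 hbA, ?_⟩
    obtain ⟨H, hH, hH'⟩ := hthin.cover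
    exact ⟨H, fun x hx => hH ⟨hx.1, (hball hx.2).1⟩, hH'⟩
  obtain ⟨hcon, hdns, hsec⟩ := hS n A B hAB isOpen_ball (convex_ball _ _)
  set V : Set M := φ.source ∩ φ ⁻¹' B with hV
  have hVo : IsOpen V := φ.isOpen_inter_preimage isOpen_ball
  let T : Set ↥(Nᶜ) := Subtype.val ⁻¹' V
  let g : ↥T ≃ₜ ↥(B \ A) :=
    { toFun := fun q => ⟨φ q.1.1, q.2.2, fun h => q.1.2 (by
        have h2 : φ.symm (φ q.1.1) ∈ N := h.2
        rwa [φ.left_inv q.2.1] at h2)⟩
      invFun := fun b => ⟨⟨φ.symm b.1, fun h => b.2.2 ⟨(hball b.2.1).1, h⟩⟩,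
        φ.map_target (hball b.2.1).1, by
          show φ (φ.symm b.1) ∈ B
          rw [φ.right_inv (hball b.2.1).1]
          exact b.2.1⟩
      left_inv := fun q => Subtype.ext (Subtype.ext (φ.left_inv q.2.1))
      right_inv := fun b => Subtype.ext (φ.right_inv (hball b.2.1).1)
      continuous_toFun := by
        refine Continuous.subtype_mk (continuous_iff_continuousAt.2 fun q => ?_) _
        exact ContinuousAt.comp (g := φ) (φ.continuousAt q.2.1)
          (continuous_subtype_val.comp continuous_subtype_val).continuousAt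
      continuous_invFun := by
        refine Continuous.subtype_mk (Continuous.subtype_mk
          (continuous_iff_continuousAt.2 fun b => ?_) _) _
        exact ContinuousAt.comp (g := φ.symm) (φ.continuousAt_symm (hball b.2.1).1)
          continuous_subtype_val.continuousAt }
  refine ⟨V, ?_, ⟨hz, mem_ball_self hr⟩, hVo, ?_, ?_, ?_⟩
  · intro q hq
    have h2 : φ.symm (φ q) ∈ W := (hball hq.2).2
    rwa [φ.left_inv hq.1] at h2
  · have _ : PreconnectedSpace ↥(B \ A) := isPreconnected_iff_preconnectedSpace.1 hcon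
    have h2 : IsPreconnected (range fun b : ↥(B \ A) => (g.symm b).1) :=
      isPreconnected_range (continuous_subtype_val.comp g.symm.continuous)
    have h3 : (range fun b : ↥(B \ A) => (g.symm b).1) = T := by
      ext q
      constructor
      · rintro ⟨b, rfl⟩
        exact (g.symm b).2
      · intro hq
        exact ⟨g ⟨q, hq⟩, congrArg Subtype.val (g.symm_apply_apply ⟨q, hq⟩)⟩
    rw [h3] at h2
    exact h2
  · intro q hq
    refine comap_neBot_iff.2 fun t ht => ?_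
    have h2 : φ.symm ⁻¹' t ∈ 𝓝 (φ q) :=
      (φ.continuousAt_symm (φ.map_source hq.1)) (by rw [φ.left_inv hq.1]; exact ht)
    obtain ⟨b', ⟨hb't, hb'B⟩, hb'A⟩ := hdns (φ q) hq.2 _ h2
    exact ⟨⟨φ.symm b', fun h => hb'A ⟨(hball hb'B).1, h⟩⟩, hb't⟩
  · intro x hx
    obtain ⟨s, hs, hsx⟩ := hsec _ _ ((hc.restrictPreimage T).homeomorph_comp g) ⟨x, hx⟩
    classical
    let σ : ↥(Nᶜ) → C := fun q => if h : q ∈ T then (s (g ⟨q, h⟩)).1 else x
    have hσ : ∀ (q : ↥(Nᶜ)) (h : q ∈ T), σ q = (s (g ⟨q, h⟩)).1 := fun q h => dif_pos h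
    refine ⟨σ, fun q hq => ⟨?_, ?_⟩, ?_⟩
    · rw [hσ q hq]
      have h2 := g.injective (hs (g ⟨q, hq⟩))
      exact congrArg Subtype.val h2
    · have h2 : ContinuousOn σ T := by
        rw [continuousOn_iff_continuous_domRestrict]
        have h3 : T.domRestrict σ = fun q => (s (g q)).1 := funext fun q => hσ q.1 q.2
        rw [h3]
        exact continuous_subtype_val.comp (s.continuous.comp g.continuous)
      exact h2.continuousAt ((hVo.preimage continuous_subtype_val).mem_nhds hq)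
    · rw [hσ (c x) hx]
      exact congrArg Subtype.val hsx

/-- **M2** -/
theorem covInj_of (hS : SecStmt) : CovInjStmt := by
  intro n M C _ _ _ _ _ _ N hN hch c hc
  have _ : LocallyPathConnectedSpace M := by
    refine ⟨fun z => ⟨fun W => ⟨fun hW => ?_, ?_⟩⟩⟩
    · obtain ⟨φ, hz, -⟩ := hch z
      have h1 : φ.target ∩ φ.symm ⁻¹' W ∈ 𝓝 (φ z) :=
        inter_mem (φ.open_target.mem_nhds (φ.map_source hz))
          ((φ.continuousAt_symm (φ.map_source hz)) (by rw [φ.left_inv hz]; exact hW))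
      obtain ⟨r, hr, hball⟩ := Metric.mem_nhds_iff.1 h1
      refine ⟨φ.symm '' ball (φ z) r, ⟨?_, ?_⟩, ?_⟩
      · exact φ.symm.image_mem_nhds (φ.map_source hz) (ball_mem_nhds _ hr) |> fun h => by
          rwa [φ.left_inv hz] at h
      · refine ((convex_ball (φ z) r).isPathConnected ⟨φ z, mem_ball_self hr⟩).image' ?_
        exact φ.continuousOn_symm.mono fun x hx => (hball hx).1
      · rintro _ ⟨b, hb, rfl⟩
        exact (hball hb).2
    · rintro ⟨i, ⟨hi, -⟩, hiW⟩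
      exact mem_of_superset hi hiW
  exact inj_of_nice hc (nice_basis hS hch hc)

end Sheet

end Vale.Agent.P281.H83
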