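import Vale.Agent.P281.H603.C.Spec
import Vale.Agent.P281.H383.U.Tame

/-! P281, class C, block M5 (helper83): a Hermitian metric on a compact model gives an admissible
notion of tame slices. -/

open scoped Manifold ContDiff Topology ComplexConjugate ComplexOrder
open Set Filter Metric

noncomputable section

namespace Vale.Agent.P281.H83

open Vale.Agent.P281 Vale.Agent.P272.K Vale.Agent.P281.H64.TU Vale.Agent.P281.H383.U
open Vale.Agent.P281.H603.C

variable {n d : ℕ} {X₁ : Type} [TopologicalSpace X₁] [ChartedSpace (Cm n) X₁]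
  [IsManifold 𝓘(ℂ, Cm n) ω X₁]

/-- the change of chart, in terms of `jacM` -/
theorem fderiv_change {e e' : Chart n X₁} {x : X₁} (he : At e x) (he' : At e' x) (η : Cm n) :
    fderiv ℂ (fun c => e' (e.symm c)) (e x) η = (jacM e e' x).mulVec η := by
  funext q
  simp only [Matrix.mulVec, dotProduct]
  have h4 : ∀ i, jacM e e' x q i =
      fderiv ℂ (fun w => e' (e.symm w)) (e x) (Pi.single i 1) q := fun i =>
    H713.SA.jacM_apply he he' q i
  simp only [h4]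
  conv_lhs => rw [← Finset.univ_sum_single η]
  rw [map_sum, Finset.sum_apply]
  refine Finset.sum_congr rfl fun i _ => ?_
  have h5 : (Pi.single i (η i) : Cm n) = (η i) • (Pi.single i 1 : Cm n) := by
    rw [← Pi.single_smul, smul_eq_mul, mul_one]
  rw [h5, map_smul, Pi.smul_apply, smul_eq_mul, mul_comm]

theorem hf_chart {w : Chart n X₁ → Cm n → Matrix (Fin n) (Fin n) ℂ} (hw : IsHermitian w)
    {e e' : Chart n X₁} {x : X₁} (he : At e x) (he' : At e' x) (η : Cm n) :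
    hf (w e (e x)) η = hf (w e' (e' x)) (fderiv ℂ (fun c => e' (e.symm c)) (e x) η) := by
  rw [fderiv_change he he', ← hf_change, ← hw.change e e' x he he']

/-- The estimate for the derivative of `F` at `x`. -/
def Good (w : Chart n X₁ → Cm n → Matrix (Fin n) (Fin n) ℂ) (F : X₁ → Cm d) (K : ℝ) (x : X₁) :
    Prop :=
  ∀ e : Chart n X₁, At e x → ∀ η : Cm n,
    ‖fderiv ℂ (fun c => F (e.symm c)) (e x) η‖ ^ 2 ≤ K * (hf (w e (e x)) η).re

omit [IsManifold 𝓘(ℂ, Cm n) ω X₁] in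
theorem Good.mono {w : Chart n X₁ → Cm n → Matrix (Fin n) (Fin n) ℂ} (hw : IsHermitian w)
    {F : X₁ → Cm d} {K K' : ℝ} {x : X₁} (h : Good w F K x) (hK : K ≤ K') : Good w F K' x := by
  intro e he η
  refine (h e he η).trans (mul_le_mul_of_nonneg_right hK ?_)
  by_cases h0 : η = 0
  · subst h0
    simp [hf]
  · exact (hf_pos (hw.posDef e x he) h0).le

/-- local version -/
theorem good_near {w : Chart n X₁ → Cm n → Matrix (Fin n) (Fin n) ℂ} (hw : IsHermitian w)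
    {F : X₁ → Cm d} {x₁ : X₁} (hF : ∀ᶠ x in 𝓝 x₁, ContMDiffAt 𝓘(ℂ, Cm n) 𝓘(ℂ, Cm d) ω F x) :
    ∃ K : ℝ, 0 < K ∧ ∀ᶠ x in 𝓝 x₁, Good w F K x := by
  set ψ : Chart n X₁ := chartAt (Cm n) x₁ with hψ
  have hψa : ψ ∈ atlas (Cm n) X₁ := chart_mem_atlas _ _
  have hx₁ : x₁ ∈ ψ.source := mem_chart_source _ _
  obtain ⟨m, hm, hlow⟩ := hf_lower (A := fun c => w ψ c)
    (fun i j => (hw.smooth ψ x₁ ⟨hψa, hx₁⟩ i j).continuousAt) (hw.posDef ψ x₁ ⟨hψa, hx₁⟩)
  -- `F` in a chart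
  have hloc : ∀ e : Chart n X₁, ∀ x, At e x → ContMDiffAt 𝓘(ℂ, Cm n) 𝓘(ℂ, Cm d) ω F x →
      ContDiffAt ℂ ω (fun c => F (e.symm c)) (e x) := by
    intro e x he hFx
    have h1 : ContMDiffAt 𝓘(ℂ, Cm n) 𝓘(ℂ, Cm n) ω e.symm (e x) :=
      contMDiffAt_symm_of_mem_maximalAtlas
        (IsManifold.subset_maximalAtlas he.1) (e.map_source he.2)
    have h2 : ContMDiffAt 𝓘(ℂ, Cm n) 𝓘(ℂ, Cm d) ω F (e.symm (e x)) := by
      rw [e.left_inv he.2]
      exact hFx
    exact contMDiffAt_iff_contDiffAt.1 (h2.comp (e x) h1)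
  have hg : ContDiffAt ℂ ω (fun c => F (ψ.symm c)) (ψ x₁) := hloc ψ x₁ ⟨hψa, hx₁⟩ hF.self_of_nhds
  have hgc : ContinuousAt (fun c => fderiv ℂ (fun c => F (ψ.symm c)) c) (ψ x₁) :=
    (hg.fderiv_right (m := ω) (by simp)).continuousAt
  set C : ℝ := ‖fderiv ℂ (fun c => F (ψ.symm c)) (ψ x₁)‖ + 1 with hC
  have hC0 : 0 < C := by positivity
  have hgn : ∀ᶠ c in 𝓝 (ψ x₁), ‖fderiv ℂ (fun c => F (ψ.symm c)) c‖ < C :=
    hgc.norm.eventually_lt_const (by rw [hC]; linarith)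
  refine ⟨C ^ 2 / m, by positivity, ?_⟩
  have hψc : ContinuousAt ψ x₁ := ψ.continuousAt hx₁
  filter_upwards [hF, ψ.open_source.eventually_mem hx₁, hψc.eventually hlow, hψc.eventually hgn]
    with x hFx hxs hxl hxn
  intro e he η
  have hψx : At ψ x := ⟨hψa, hxs⟩
  set D : Cm n →L[ℂ] Cm n := fderiv ℂ (fun c => ψ (e.symm c)) (e x) with hD
  have hch : fderiv ℂ (fun c => F (e.symm c)) (e x) η =
      fderiv ℂ (fun c => F (ψ.symm c)) (ψ x) (D η) := by
    have h1 : DifferentiableAt ℂ (fun c => ψ (e.symm c)) (e x) :=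
      (INT.transition_contDiffAt he hψx).differentiableAt (by simp)
    have h2 : (fun c => F (e.symm c)) =ᶠ[𝓝 (e x)] fun c => F (ψ.symm (ψ (e.symm c))) := by
      have h3 : ContinuousAt e.symm (e x) := e.continuousAt_symm (e.map_source he.2)
      have h4 : ψ.source ∈ 𝓝 (e.symm (e x)) := by
        rw [e.left_inv he.2]
        exact ψ.open_source.mem_nhds hxs
      filter_upwards [h3 h4] with c hc
      rw [ψ.left_inv hc]
    have h5 : DifferentiableAt ℂ (fun c => F (ψ.symm c)) ((fun c => ψ (e.symm c)) (e x)) := by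
      show DifferentiableAt ℂ (fun c => F (ψ.symm c)) (ψ (e.symm (e x)))
      rw [e.left_inv he.2]
      exact (hloc ψ x hψx hFx).differentiableAt (by simp)
    have h6 : HasFDerivAt (fun c => F (ψ.symm (ψ (e.symm c))))
        ((fderiv ℂ (fun c => F (ψ.symm c)) (ψ (e.symm (e x)))).comp D) (e x) :=
      HasFDerivAt.comp (g := fun c => F (ψ.symm c)) (e x) h5.hasFDerivAt h1.hasFDerivAt
    rw [h2.fderiv_eq, h6.fderiv, ContinuousLinearMap.comp_apply, e.left_inv he.2]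
  rw [hch, hf_chart hw he hψx]
  calc ‖fderiv ℂ (fun c => F (ψ.symm c)) (ψ x) (D η)‖ ^ 2 ≤ (C * ‖D η‖) ^ 2 := by
        gcongr
        exact (ContinuousLinearMap.le_opNorm _ _).trans
          (mul_le_mul_of_nonneg_right hxn.le (norm_nonneg _))
    _ = C ^ 2 / m * (m * ‖D η‖ ^ 2) := by field_simp
    _ ≤ C ^ 2 / m * (hf (w ψ (ψ x)) (D η)).re := by
        gcongr
        exact hxl (D η)

/-- compact version -/
theorem good_compact {w : Chart n X₁ → Cm n → Matrix (Fin n) (Fin n) ℂ} (hw : IsHermitian w)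
    {F : X₁ → Cm d} {Z : Set X₁} (hZ : IsCompact Z)
    (hF : ∀ x₁ ∈ Z, ∀ᶠ x in 𝓝 x₁, ContMDiffAt 𝓘(ℂ, Cm n) 𝓘(ℂ, Cm d) ω F x) :
    ∃ K : ℝ, 0 < K ∧ ∀ᶠ x in 𝓝ˢ Z, Good w F K x := by
  choose! k hk0 hk using fun x₁ (hx₁ : x₁ ∈ Z) => good_near (w := w) hw (hF x₁ hx₁)
  obtain ⟨T, hTZ, hT⟩ := hZ.elim_nhds_subcover_nhdsSet (U := fun x => {x' | Good w F (k x) x'}) hk
  refine ⟨∑ x ∈ T, |k x| + 1, by positivity, ?_⟩
  filter_upwards [hT] with x hx
  simp only [mem_iUnion, mem_ofPred_eq, exists_prop] at hx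
  obtain ⟨x₀, hx₀, hx⟩ := hx
  refine hx.mono hw ?_
  have h1 : |k x₀| ≤ ∑ x ∈ T, |k x| :=
    Finset.single_le_sum (f := fun x => |k x|) (fun _ _ => abs_nonneg _) hx₀
  linarith [le_abs_self (k x₀)]

/-- **M5** -/
theorem mtameOK : MTameOKStmt := by
  intro n d X X₁ _ _ _ _ _ _ _ _ _ u w hu hw y z₀ P hy
  set φ : Chart n X := chartAt (Cm n) z₀ with hφ
  have hφa : φ ∈ atlas (Cm n) X := chart_mem_atlas _ _
  set F : X₁ → Cm d := fun x => P (φ (u x)) with hFdef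
  have hFm : ∀ x, u x ∈ φ.source → ContMDiffAt 𝓘(ℂ, Cm n) 𝓘(ℂ, Cm d) ω F x := by
    intro x hx
    have h1 : ContMDiffAt 𝓘(ℂ, Cm n) 𝓘(ℂ, Cm n) ω φ (u x) :=
      contMDiffAt_of_mem_maximalAtlas (IsManifold.chart_mem_maximalAtlas z₀) hx
    have h2 : ContMDiffAt 𝓘(ℂ, Cm n) 𝓘(ℂ, Cm d) ω P (φ (u x)) :=
      contMDiffAt_iff_contDiffAt.2 P.contDiff.contDiffAt
    exact h2.comp x (h1.comp x (hu x))
  have hcl : IsClosedMap u := hu.continuous.isClosedMap
  have hZ : IsCompact (u ⁻¹' {y}) := (isClosed_singleton.preimage hu.continuous).isCompact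
  obtain ⟨K, hK, hKe⟩ := good_compact (w := w) (F := F) hw hZ (by
    intro x₁ hx₁
    have h1 : u x₁ ∈ φ.source := by
      rw [show u x₁ = y from hx₁]
      exact hy
    filter_upwards [hu.continuous.continuousAt.eventually (φ.open_source.eventually_mem h1)]
      with x hx using hFm x hx)
  have hN : ∀ᶠ y' in 𝓝 y, ∀ x ∈ u ⁻¹' {y'}, Good w F K x := hcl.eventually_nhds_fiber y (eventually_nhdsSet_iff_forall.1 hKe)
  refine ⟨{y' | y' ∈ φ.source ∧ ∀ x ∈ u ⁻¹' {y'}, Good w F K x},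
    (φ.open_source.eventually_mem hy).and hN, K, hK, ?_⟩
  intro Q v₀ r hr hQ v hv q₁ hq₁ hlift _ e he ξ
  obtain ⟨hQv, ⟨hQs, hQl⟩, -⟩ := hQ v hv
  have huq : u (q₁ v) = Q v := hlift.self_of_nhds
  have hgood := hQl (q₁ v) huq e he (fderiv ℂ (fun s => e (q₁ s)) v ξ)
  have hd : DifferentiableAt ℂ (fun s => e (q₁ s)) v := by
    have h1 : ContMDiffAt 𝓘(ℂ, Cm n) 𝓘(ℂ, Cm n) ω e (q₁ v) :=
      contMDiffAt_of_mem_maximalAtlas (IsManifold.subset_maximalAtlas he.1) he.2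
    have h2 : ContMDiffAt 𝓘(ℂ, Cm d) 𝓘(ℂ, Cm n) ω (fun s => e (q₁ s)) v :=
      ContMDiffAt.comp v h1 hq₁
    exact (contMDiffAt_iff_contDiffAt.1 h2).differentiableAt (by simp)
  have hFe : DifferentiableAt ℂ (fun c => F (e.symm c)) (e (q₁ v)) := by
    have h1 : ContMDiffAt 𝓘(ℂ, Cm n) 𝓘(ℂ, Cm n) ω e.symm (e (q₁ v)) :=
      contMDiffAt_symm_of_mem_maximalAtlas
        (IsManifold.subset_maximalAtlas he.1) (e.map_source he.2)
    have h2 : ContMDiffAt 𝓘(ℂ, Cm n) 𝓘(ℂ, Cm d) ω F (e.symm (e (q₁ v))) := by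
      rw [e.left_inv he.2]
      exact hFm _ (huq ▸ hQs)
    exact (contMDiffAt_iff_contDiffAt.1 (h2.comp _ h1)).differentiableAt (by simp)
  have hid : fderiv ℂ (fun c => F (e.symm c)) (e (q₁ v)) (fderiv ℂ (fun s => e (q₁ s)) v ξ) = ξ := by
    have h1 : HasFDerivAt (fun s => F (e.symm (e (q₁ s))))
        ((fderiv ℂ (fun c => F (e.symm c)) (e (q₁ v))).comp (fderiv ℂ (fun s => e (q₁ s)) v)) v :=
      HasFDerivAt.comp (g := fun c => F (e.symm c)) v hFe.hasFDerivAt hd.hasFDerivAt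
    have h2 : (fun s => F (e.symm (e (q₁ s)))) =ᶠ[𝓝 v] fun s => s := by
      filter_upwards [hlift, isOpen_ball.mem_nhds hv,
        hq₁.continuousAt.eventually (e.open_source.eventually_mem he.2)] with s hs hsb hse
      rw [e.left_inv hse]
      show P (φ (u (q₁ s))) = s
      rw [hs]
      exact (hQ s hsb).2.2
    have h3 : HasFDerivAt (fun s : Cm d => s)
        ((fderiv ℂ (fun c => F (e.symm c)) (e (q₁ v))).comp (fderiv ℂ (fun s => e (q₁ s)) v)) v :=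
      h1.congr_of_eventuallyEq h2.symm
    have h4 := h3.unique (hasFDerivAt_id v)
    exact congrArg (fun L : Cm d →L[ℂ] Cm d => L ξ) h4
  rw [hid] at hgood
  exact hgood

end Vale.Agent.P281.H83
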